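import Vale.Agent.P297.H572.Z3.Mem

/-!
Any two generic points of an elliptic curve over a closed subfield are conjugate (no bound on the
transcendence degree).
-/

set_option linter.unusedSectionVars false

open IntermediateField Polynomial WeierstrassCurve WeierstrassCurve.Affine

namespace Vale.Agent.P297.H860

open Vale.Agent.P297 Vale.Agent.P297.Gen Vale.Agent.P297.H839 Vale.Agent.P297.H516
open Vale.Agent.P297.Z3

variable {N : Type} [Field N] [Algebra ℂ N] [IsAlgClosed N]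

theorem closed_chain {c : Set (IntermediateField ℂ N)} (hc : IsChain (· ≤ ·) c)
    (hcl : ∀ M ∈ c, Closed M) {M₀ : IntermediateField ℂ N} (h₀ : M₀ ∈ c) :
    ∃ U : IntermediateField ℂ N, Closed U ∧ (∀ M ∈ c, M ≤ U) ∧ ∀ x ∈ U, ∃ M ∈ c, x ∈ M := by
  have : Nonempty c := ⟨⟨M₀, h₀⟩⟩
  have hdir : Directed (· ≤ ·) (fun M : c => (M : IntermediateField ℂ N)) :=
    hc.directedOn.directed_val
  have hmem : ∀ x, x ∈ (⨆ M : c, (M : IntermediateField ℂ N)) ↔ ∃ M ∈ c, x ∈ M := by
    intro x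
    rw [← SetLike.mem_coe, IntermediateField.coe_iSup_of_directed hdir, Set.mem_iUnion]
    constructor
    · rintro ⟨M, hM⟩
      exact ⟨M, M.2, hM⟩
    · rintro ⟨M, hM, hx⟩
      exact ⟨⟨M, hM⟩, hx⟩
  refine ⟨⨆ M : c, (M : IntermediateField ℂ N), ?_, fun M hM x hx => (hmem x).2 ⟨M, hM, hx⟩,
    fun x hx => (hmem x).1 hx⟩
  intro u hu
  obtain ⟨p, hp0, hp⟩ := hu
  -- a member of the chain that contains the coefficients
  have hfin : ∀ s : Finset N, (∀ x ∈ s, x ∈ (⨆ M : c, (M : IntermediateField ℂ N))) →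
      ∃ M ∈ c, ∀ x ∈ s, x ∈ M := by
    classical
    intro s
    induction s using Finset.induction_on with
    | empty => exact fun _ => ⟨M₀, h₀, fun x hx => absurd hx (Finset.notMem_empty x)⟩
    | insert y s hy ih =>
      intro hs
      obtain ⟨M, hM, h1⟩ := ih fun x hx => hs x (Finset.mem_insert_of_mem hx)
      obtain ⟨M', hM', h2⟩ := (hmem y).1 (hs y (Finset.mem_insert_self y s))
      rcases hc.total hM hM' with h | h
      · refine ⟨M', hM', fun x hx => ?_⟩
        rcases Finset.mem_insert.1 hx with rfl | hx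
        · exact h2
        · exact h (h1 x hx)
      · refine ⟨M, hM, fun x hx => ?_⟩
        rcases Finset.mem_insert.1 hx with rfl | hx
        · exact h h2
        · exact h1 x hx
  classical
  obtain ⟨M, hM, h1⟩ := hfin (p.support.image fun n => (p.coeff n : N)) (by
    intro x hx
    obtain ⟨n, -, rfl⟩ := Finset.mem_image.1 hx
    exact (p.coeff n).2)
  refine (hmem u).2 ⟨M, hM, hcl M hM u ?_⟩
  refine isAlgebraic_of_coeff (p := p.map (algebraMap _ N)) ?_ ?_ ?_
  · intro n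
    rw [coeff_map]
    by_cases hn : n ∈ p.support
    · exact h1 _ (Finset.mem_image_of_mem _ hn)
    · rw [Polynomial.notMem_support_iff.1 hn, map_zero]
      exact zero_mem M
  · exact (Polynomial.map_ne_zero_iff (FaithfulSMul.algebraMap_injective _ N)).2 hp0
  · rw [Polynomial.eval_map]
    exact hp

/-- A closed subfield of codimension one that does not contain two given elements. -/
theorem exists_hyper {κ : IntermediateField ℂ N} (hκ : Closed κ) {x x' : N} (hx : x ∉ κ)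
    (hx' : x' ∉ κ) : ∃ M : IntermediateField ℂ N, Closed M ∧ κ ≤ M ∧ x ∉ M ∧ x' ∉ M ∧
      (∀ v : N, IsAlgebraic (IntermediateField.adjoin M {x}) v) ∧
      (∀ v : N, IsAlgebraic (IntermediateField.adjoin M {x'}) v) := by
  obtain ⟨M, hκM, hmax⟩ := zorn_le_nonempty₀
    {M : IntermediateField ℂ N | Closed M ∧ κ ≤ M ∧ x ∉ M ∧ x' ∉ M}
    (fun c hc hch M₀ h₀ => by
      obtain ⟨U, h1, h2, h3⟩ := closed_chain hch (fun M hM => (hc hM).1) h₀
      refine ⟨U, ⟨h1, (hc h₀).2.1.trans (h2 M₀ h₀), fun h => ?_, fun h => ?_⟩, h2⟩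
      · obtain ⟨M, hM, h4⟩ := h3 x h
        exact (hc hM).2.2.1 h4
      · obtain ⟨M, hM, h4⟩ := h3 x' h
        exact (hc hM).2.2.2 h4) κ ⟨hκ, le_rfl, hx, hx'⟩
  obtain ⟨hMc, -, hxM, hxM'⟩ := hmax.1
  have hbig : ∀ v, v ∉ M → x ∈ clo M {v} ∨ x' ∈ clo M {v} := by
    intro v hv
    by_contra hcon
    push Not at hcon
    have h1 : clo M {v} ≤ M := hmax.2 ⟨closed_clo _ _, hκM.trans (le_clo _ _), hcon.1, hcon.2⟩
      (le_clo M {v})
    exact hv (h1 (mem_clo_self M v))
  -- `x'` is algebraic over `M(x)`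
  have hxx : x' ∈ clo M {x} := by
    by_contra hno
    have hno' : x ∉ clo M {x'} := fun h => hno (exchange hMc h hxM)
    have hs : x + x' ∉ M := by
      intro h
      apply hno
      have h1 := sub_mem (le_clo M {x} h) (mem_clo_self M x)
      rwa [add_sub_cancel_left] at h1
    rcases hbig _ hs with h | h
    · have h1 : x + x' ∈ clo M {x} := exchange hMc h hxM
      have h2 := sub_mem h1 (mem_clo_self M x)
      rw [add_sub_cancel_left] at h2
      exact hno h2
    · have h1 : x + x' ∈ clo M {x'} := exchange hMc h hxM'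
      have h2 := sub_mem h1 (mem_clo_self M x')
      rw [add_sub_cancel_right] at h2
      exact hno' h2
  have hxx' : x ∈ clo M {x'} := exchange hMc hxx hxM'
  have hall : ∀ v, v ∈ clo M {x} := by
    intro v
    by_cases hv : v ∈ M
    · exact le_clo M {x} hv
    · rcases hbig v hv with h | h
      · exact exchange hMc h hxM
      · have h1 : v ∈ clo M {x'} := exchange hMc h hxM'
        exact clo_single_le (closed_clo _ _) (le_clo _ _) hxx h1
  refine ⟨M, hMc, hκM, hxM, hxM', fun v => mem_clo.1 (hall v), fun v => mem_clo.1 ?_⟩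
  exact clo_single_le (closed_clo _ _) (le_clo _ _) hxx' (hall v)

variable {a b : N} {κ : IntermediateField ℂ N}

/-- **Any two generic points are conjugate.** -/
theorem move (hκ : Closed κ) (ha : a ∈ κ) (hb : b ∈ κ) (hd : 4 * a ^ 3 + 27 * b ^ 2 ≠ 0)
    {x y x' y' : N} (hx : x ∉ κ) (hx' : x' ∉ κ)
    (hy : y ^ 2 = x ^ 3 + a * x + b) (hy' : y' ^ 2 = x' ^ 3 + a * x' + b) :
    ∃ g : N ≃ₐ[ℂ] N, (∀ z ∈ κ, g z = z) ∧ g x = x' ∧ g y = y' := by
  obtain ⟨M, hM, hκM, h1, h2, h3, h4⟩ := exists_hyper hκ hx hx'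
  let F : M[X] := X ^ 3 + C ⟨a, hκM ha⟩ * X + C ⟨b, hκM hb⟩
  have hF : F.Separable := by
    apply cubic_sep
    intro h0
    apply hd
    exact congrArg Subtype.val h0
  have hev : ∀ z : N, aeval z F = z ^ 3 + a * z + b := by
    intro z
    simp only [F, map_add, map_mul, map_pow, aeval_X, aeval_C]
    rfl
  have hdeg : 0 < F.natDegree := by
    have h5 : F.natDegree = 3 := by
      simp only [F]
      compute_degree!
    omega
  obtain ⟨g, hg, hgx, hgy⟩ := ext_emb M hM F hF hdeg h1 h2 (by rw [hev]; exact hy)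
    (by rw [hev]; exact hy') h3 h4
  exact ⟨g, fun z hz => hg z (hκM hz), hgx, hgy⟩

/-- the coefficients are fixed -/
theorem fixAB {g : N ≃ₐ[ℂ] N} (hg : ∀ z ∈ κ, g z = z) (ha : a ∈ κ) (hb : b ∈ κ) :
    (g : N →+* N) a = a ∧ (g : N →+* N) b = b := ⟨hg a ha, hg b hb⟩

theorem exists_gfun (hκ : Closed κ) (ha : a ∈ κ) (hb : b ∈ κ)
    (hd : 4 * a ^ 3 + 27 * b ^ 2 ≠ 0) {P Q : (wc a b).toAffine.Point} (hP : ¬ InF κ P)
    (hQ : ¬ InF κ Q) : ∃ (g : N ≃ₐ[ℂ] N) (hg : ∀ z ∈ κ, g z = z),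
      gfun (g : N →+* N) (fixAB hg ha hb) P = Q := by
  rcases P with (_ | ⟨x, y, h⟩)
  · exact absurd (inF_zero κ) hP
  rcases Q with (_ | ⟨x', y', h'⟩)
  · exact absurd (inF_zero κ) hQ
  rw [inF_iff hκ ha hb] at hP hQ
  obtain ⟨g, hg, h1, h2⟩ := move hκ ha hb hd hP hQ (wc_equation.1 h.1) (wc_equation.1 h'.1)
  refine ⟨g, hg, ?_⟩
  change Point.some _ _ _ = Point.some _ _ _
  rw [Point.some.injEq]
  exact ⟨h1, h2⟩

/-- a point that is defined over `κ` is fixed -/
theorem gfun_fix {g : N ≃ₐ[ℂ] N} (hg : ∀ z ∈ κ, g z = z) (ha : a ∈ κ) (hb : b ∈ κ)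
    {P : (wc a b).toAffine.Point} (hP : InF κ P) :
    gfun (g : N →+* N) (fixAB hg ha hb) P = P := by
  rcases P with (_ | ⟨x, y, h⟩)
  · rfl
  · obtain ⟨h1, h2⟩ := hP x y h rfl
    change Point.some _ _ _ = Point.some _ _ _
    rw [Point.some.injEq]
    exact ⟨hg x h1, hg y h2⟩

end Vale.Agent.P297.H860
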