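import Vale.Agent.P297.H860.Theta

/-!
The additive function `D x / y` and binary quartics; kernel; sums.
-/

set_option linter.unusedSectionVars false

namespace Vale.Agent.P297.H860

open Vale.Agent.P297.Z3 Vale.Agent.P297.G4 WeierstrassCurve WeierstrassCurve.Affine

variable {k : Type} [Field k] [CharZero k] {a b : k}

/-- `theta` as a homomorphism -/
noncomputable def thetaHom [DecidableEq k] (D : Derivation ℤ k k) (ha : D a = 0) (hb : D b = 0) :
    (wc a b).toAffine.Point →+ k where
  toFun := theta D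
  map_zero' := theta_zero D
  map_add' := theta_add ha hb

theorem thetaHom_apply [DecidableEq k] {D : Derivation ℤ k k} (ha : D a = 0) (hb : D b = 0)
    (P : (wc a b).toAffine.Point) : thetaHom D ha hb P = theta D P := rfl

theorem theta_sub [DecidableEq k] {D : Derivation ℤ k k} (ha : D a = 0) (hb : D b = 0)
    (P Q : (wc a b).toAffine.Point) : theta D (P - Q) = theta D P - theta D Q :=
  map_sub (thetaHom D ha hb) P Q

theorem theta_nsmul [DecidableEq k] {D : Derivation ℤ k k} (ha : D a = 0) (hb : D b = 0) (n : ℕ)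
    (P : (wc a b).toAffine.Point) : theta D (n • P) = n * theta D P := by
  have h := map_nsmul (thetaHom D ha hb) n P
  rw [nsmul_eq_mul] at h
  exact h

theorem theta_zsmul [DecidableEq k] {D : Derivation ℤ k k} (ha : D a = 0) (hb : D b = 0) (n : ℤ)
    (P : (wc a b).toAffine.Point) : theta D (n • P) = n * theta D P := by
  have h := map_zsmul (thetaHom D ha hb) n P
  rw [zsmul_eq_mul] at h
  exact h

theorem theta_sum [DecidableEq k] {D : Derivation ℤ k k} (ha : D a = 0) (hb : D b = 0)
    {ι : Type*} (s : Finset ι) (P : ι → (wc a b).toAffine.Point) :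
    theta D (∑ i ∈ s, P i) = ∑ i ∈ s, theta D (P i) :=
  map_sum (thetaHom D ha hb) P s

/-- the kernel -/
theorem theta_eq_zero {D : Derivation ℤ k k} (ha : D a = 0) (hb : D b = 0) {x y : k}
    (h : (wc a b).toAffine.Nonsingular x y) (h0 : theta D (.some x y h) = 0) :
    D x = 0 ∧ D y = 0 := by
  obtain ⟨h1, h2⟩ := theta_spec ha hb h
  rw [h0, zero_mul] at h1 h2
  exact ⟨h1, (mul_eq_zero.1 h2).resolve_left two_ne_zero⟩

/-- conversely -/
theorem theta_of_eq_zero {D : Derivation ℤ k k} {x y : k}
    (h : (wc a b).toAffine.Nonsingular x y) (h0 : D x = 0) : theta D (.some x y h) = 0 := by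
  rw [theta_some, h0, zero_div]

section Quartic

variable {c : Fin 5 → k} {e : k}

theorem D_qI {D : Derivation ℤ k k} (hc : ∀ i, D (c i) = 0) : D (-qI c / 3) = 0 := by
  have h3 : D (3 : k) = 0 := by
    have := D.map_natCast 3
    simpa using this
  have h12 : D (12 : k) = 0 := by
    have := D.map_natCast 12
    simpa using this
  rw [D.leibniz_div]
  unfold qI
  simp only [map_neg, map_add, map_sub, D.leibniz, D.leibniz_pow, hc, h3, h12, smul_zero,
    add_zero, neg_zero, sub_zero]

theorem D_qJ {D : Derivation ℤ k k} (hc : ∀ i, D (c i) = 0) : D (-qJ c / 27) = 0 := by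
  have hn : ∀ n : ℕ, D ((n : ℕ) : k) = 0 := fun n => D.map_natCast n
  have h27 : D (27 : k) = 0 := by simpa using hn 27
  have h72 : D (72 : k) = 0 := by simpa using hn 72
  have h9 : D (9 : k) = 0 := by simpa using hn 9
  have h2 : D (2 : k) = 0 := by simpa using hn 2
  rw [D.leibniz_div]
  unfold qJ
  simp only [map_neg, map_add, map_sub, D.leibniz, D.leibniz_pow, hc, h27, h72, h9, h2, smul_zero,
    add_zero, neg_zero, sub_zero]

theorem D_q1 {D : Derivation ℤ k k} (hc : ∀ i, D (c i) = 0) (he : D e = 0) : D (q1 c e) = 0 := by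
  have hn : ∀ n : ℕ, D ((n : ℕ) : k) = 0 := fun n => D.map_natCast n
  have h2 : D (2 : k) = 0 := by simpa using hn 2
  have h3 : D (3 : k) = 0 := by simpa using hn 3
  have h4 : D (4 : k) = 0 := by simpa using hn 4
  unfold q1
  simp only [map_add, D.leibniz, D.leibniz_pow, hc, he, h2, h3, h4, smul_zero, add_zero]

theorem D_q2 {D : Derivation ℤ k k} (hc : ∀ i, D (c i) = 0) (he : D e = 0) :
    D (q2 c e / 3) = 0 := by
  have hn : ∀ n : ℕ, D ((n : ℕ) : k) = 0 := fun n => D.map_natCast n
  have h3 : D (3 : k) = 0 := by simpa using hn 3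
  have h6 : D (6 : k) = 0 := by simpa using hn 6
  rw [D.leibniz_div]
  unfold q2
  simp only [map_add, D.leibniz, D.leibniz_pow, hc, he, h3, h6, smul_zero, add_zero, sub_zero]

/-- the differential of the first coordinate on the quartic -/
theorem D_aX {D : Derivation ℤ k k} (hc : ∀ i, D (c i) = 0) (he : D e = 0)
    {P : (Wq c).Point} (hP : Fin' c e P) : D (aX c e P) = -(theta D P) * aY c e P := by
  obtain ⟨x, y, h, rfl, hx⟩ := hP
  have hz : x - q2 c e / 3 ≠ 0 := sub_ne_zero.2 hx
  have h1 := (theta_spec (D_qI hc) (D_qJ hc) h).1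
  rw [aX_some, aY_some, map_add, he, zero_add, D.leibniz_div, D_q1 hc he, map_sub, D_q2 hc he, h1]
  simp only [smul_eq_mul]
  field_simp
  ring

theorem theta_aX {D : Derivation ℤ k k} (hc : ∀ i, D (c i) = 0) (he : D e = 0)
    {P : (Wq c).Point} (hP : Fin' c e P) (hY : aY c e P ≠ 0) :
    theta D P = -(D (aX c e P) / aY c e P) := by
  rw [D_aX hc he hP]
  field_simp

end Quartic

end Vale.Agent.P297.H860
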