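import Vale.Agent.P297.H860.Hyper
import Vale.Agent.P297.H860.Theta2

/-!
The deduction at the end of the other side: three homomorphisms from the points of the elliptic curve
with the relations of the four lines vanish up to torsion.
-/

set_option linter.unusedSectionVars false

open IntermediateField Polynomial WeierstrassCurve WeierstrassCurve.Affine

namespace Vale.Agent.P297.H860

open Vale.Agent.P297 Vale.Agent.P297.Gen Vale.Agent.P297.H839 Vale.Agent.P297.H516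
open Vale.Agent.P297.Z3

variable {N : Type} [Field N] [Algebra ℂ N] [IsAlgClosed N] [CharZero N] [DecidableEq N]
variable {a b : N} {κ : IntermediateField ℂ N}

/-- a point with a given first coordinate -/
theorem exists_point (hd : 4 * a ^ 3 + 27 * b ^ 2 ≠ 0) (x : N) :
    ∃ y, ∃ h : (wc a b).toAffine.Nonsingular x y, (Point.some x y h) = .some x y h := by
  obtain ⟨y, hy⟩ := IsAlgClosed.exists_pow_nat_eq (x ^ 3 + a * x + b) (n := 2) (by norm_num)
  exact ⟨y, wc_nonsing hd hy, rfl⟩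

theorem gen_add {P Q : (wc a b).toAffine.Point} (ha : a ∈ κ) (hP : ¬ InF κ P) (hQ : InF κ Q) :
    ¬ InF κ (P + Q) := by
  intro h
  apply hP
  have h1 := h.sub ha hQ
  rwa [add_sub_cancel_right] at h1

section Hom

variable {A : Type*} [AddCommGroup A]

/-- **A homomorphism that is constant on the conjugates of a generic point vanishes.** -/
theorem hom_zero (hκ : Closed κ) (ha : a ∈ κ) (hb : b ∈ κ) (hd : 4 * a ^ 3 + 27 * b ^ 2 ≠ 0)
    (hbig : ∃ x x' : N, x ∉ κ ∧ x' ∉ clo κ {x}) (H : (wc a b).toAffine.Point →+ A)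
    {P₀ : (wc a b).toAffine.Point} (hP₀ : ¬ InF κ P₀)
    (hinv : ∀ (g : N ≃ₐ[ℂ] N) (hg : ∀ z ∈ κ, g z = z),
      H (gfun (g : N →+* N) (fixAB hg ha hb) P₀) = H P₀) (Q : (wc a b).toAffine.Point) :
    H Q = 0 := by
  have hgen : ∀ Q : (wc a b).toAffine.Point, ¬ InF κ Q → H Q = H P₀ := by
    intro Q hQ
    obtain ⟨g, hg, h1⟩ := exists_gfun hκ ha hb hd hP₀ hQ
    rw [← h1]
    exact hinv g hg
  obtain ⟨x, x', hx, hx'⟩ := hbig
  obtain ⟨y, h, -⟩ := exists_point (a := a) (b := b) hd x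
  obtain ⟨y', h', -⟩ := exists_point (a := a) (b := b) hd x'
  have hle : κ ≤ clo κ {x} := le_clo _ _
  have hP : ¬ InF κ (Point.some x y h) := by
    rw [inF_iff hκ ha hb]
    exact hx
  have hP1 : InF (clo κ {x}) (Point.some x y h) := by
    rw [inF_iff (closed_clo _ _) (hle ha) (hle hb)]
    exact mem_clo_self κ x
  have hP' : ¬ InF (clo κ {x}) (Point.some x' y' h') := by
    rw [inF_iff (closed_clo _ _) (hle ha) (hle hb)]
    exact hx'
  have hP'κ : ¬ InF κ (Point.some x' y' h') := fun h0 => hP' (h0.mono hle)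
  have hs : ¬ InF κ (Point.some x' y' h' + Point.some x y h) := fun h0 =>
    gen_add (hle ha) hP' hP1 (h0.mono hle)
  have h0 : H P₀ = 0 := by
    have h1 := hgen _ hs
    rw [map_add, hgen _ hP, hgen _ hP'κ] at h1
    exact left_eq_add.1 h1.symm
  by_cases hQ : InF κ Q
  · have h1 := hgen _ (gen_add ha hP hQ)
    rw [map_add, hgen _ hP, h0, zero_add] at h1
    exact h1
  · rw [hgen Q hQ, h0]

/-- the relation between two of the homomorphisms -/
theorem hom_pair (hκ : Closed κ) (ha : a ∈ κ) (hb : b ∈ κ) (hd : 4 * a ^ 3 + 27 * b ^ 2 ≠ 0)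
    (hbig : ∃ x x' : N, x ∉ κ ∧ x' ∉ clo κ {x}) (h h' : (wc a b).toAffine.Point →+ A)
    {P₀ R : (wc a b).toAffine.Point} (hP₀ : ¬ InF κ P₀)
    (hrel : ∀ (g : N ≃ₐ[ℂ] N) (hg : ∀ z ∈ κ, g z = z),
      (2 : ℕ) • h (gfun (g : N →+* N) (fixAB hg ha hb) P₀) +
        h' (-((2 : ℕ) • gfun (g : N →+* N) (fixAB hg ha hb) P₀) + R) = 0)
    (Q : (wc a b).toAffine.Point) : (2 : ℕ) • h Q = (2 : ℕ) • h' Q := by
  let H : (wc a b).toAffine.Point →+ A := (2 : ℕ) • h - (2 : ℕ) • h'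
  have hH : ∀ P, H P = (2 : ℕ) • h P - (2 : ℕ) • h' P := fun P => rfl
  have key : ∀ (g : N ≃ₐ[ℂ] N) (hg : ∀ z ∈ κ, g z = z),
      H (gfun (g : N →+* N) (fixAB hg ha hb) P₀) = -(h' R) := by
    intro g hg
    have h1 := hrel g hg
    rw [map_add, map_neg, map_nsmul] at h1
    rw [hH, eq_neg_iff_add_eq_zero, ← h1]
    abel
  have hid : H P₀ = -(h' R) := by
    have h1 := key AlgEquiv.refl (fun z _ => rfl)
    have h2 : gfun ((AlgEquiv.refl : N ≃ₐ[ℂ] N) : N →+* N)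
        (fixAB (κ := κ) (g := AlgEquiv.refl) (fun z _ => rfl) ha hb) P₀ = P₀ := by
      rcases P₀ with (_ | ⟨x, y, hxy⟩)
      · rfl
      · rfl
    rwa [h2] at h1
  have h3 := hom_zero hκ ha hb hd hbig H hP₀ (fun g hg => by rw [key g hg, hid]) Q
  rw [hH, sub_eq_zero] at h3
  exact h3

/-- **The end of the other side.** -/
theorem hom_three (hκ : Closed κ) (ha : a ∈ κ) (hb : b ∈ κ) (hd : 4 * a ^ 3 + 27 * b ^ 2 ≠ 0)
    (hbig : ∃ x x' : N, x ∉ κ ∧ x' ∉ clo κ {x}) (h : Fin 3 → (wc a b).toAffine.Point →+ A)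
    {n : ℕ} (hn : ∀ P, ¬ InF κ P → n • ∑ j, h j P = 0)
    (hrel : ∀ i j, i ≠ j → ∃ P₀ R : (wc a b).toAffine.Point, ¬ InF κ P₀ ∧
      ∀ (g : N ≃ₐ[ℂ] N) (hg : ∀ z ∈ κ, g z = z),
        (2 : ℕ) • h i (gfun (g : N →+* N) (fixAB hg ha hb) P₀) +
          h j (-((2 : ℕ) • gfun (g : N →+* N) (fixAB hg ha hb) P₀) + R) = 0)
    (j : Fin 3) (Q : (wc a b).toAffine.Point) : (6 * n) • h j Q = 0 := by
  have h2 : ∀ i j, ∀ P, (2 : ℕ) • h i P = (2 : ℕ) • h j P := by
    intro i j P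
    by_cases hij : i = j
    · rw [hij]
    · obtain ⟨P₀, R, h1, h3⟩ := hrel i j hij
      exact hom_pair hκ ha hb hd hbig (h i) (h j) h1 h3 P
  have hgen : ∀ P, ¬ InF κ P → (6 * n) • h j P = 0 := by
    intro P hP
    have h1 := hn P hP
    have h3 : (2 : ℕ) • ∑ i, h i P = (6 : ℕ) • h j P := by
      rw [Finset.smul_sum, Finset.sum_congr rfl fun i _ => h2 i j P, Finset.sum_const,
        Finset.card_univ, Fintype.card_fin, smul_smul]
      norm_num
    rw [mul_comm, mul_smul, ← h3, smul_comm, h1, smul_zero]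
  by_cases hQ : InF κ Q
  · obtain ⟨x, x', hx, -⟩ := hbig
    obtain ⟨y, hxy, -⟩ := exists_point (a := a) (b := b) hd x
    have hP : ¬ InF κ (Point.some x y hxy) := by
      rw [inF_iff hκ ha hb]
      exact hx
    have h1 := hgen _ (gen_add ha hP hQ)
    rw [map_add, smul_add, hgen _ hP, zero_add] at h1
    exact h1
  · exact hgen Q hQ

/-- the same with equivariant homomorphisms: one relation at one generic point is enough -/
theorem hom_three' (hκ : Closed κ) (ha : a ∈ κ) (hb : b ∈ κ) (hd : 4 * a ^ 3 + 27 * b ^ 2 ≠ 0)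
    (hbig : ∃ x x' : N, x ∉ κ ∧ x' ∉ clo κ {x}) (h : Fin 3 → (wc a b).toAffine.Point →+ A)
    (σ : (N ≃ₐ[ℂ] N) → A →+ A)
    (hσ : ∀ (g : N ≃ₐ[ℂ] N) (hg : ∀ z ∈ κ, g z = z) (j : Fin 3) (P : (wc a b).toAffine.Point),
      h j (gfun (g : N →+* N) (fixAB hg ha hb) P) = σ g (h j P))
    {n : ℕ} (hn : ∀ P, ¬ InF κ P → n • ∑ j, h j P = 0)
    (hrel : ∀ i j, i ≠ j → ∃ P₀ Q₀ : (wc a b).toAffine.Point, ¬ InF κ P₀ ∧
      InF κ (Q₀ + (2 : ℕ) • P₀) ∧ (2 : ℕ) • h i P₀ + h j Q₀ = 0)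
    (j : Fin 3) (Q : (wc a b).toAffine.Point) : (6 * n) • h j Q = 0 := by
  refine hom_three hκ ha hb hd hbig h hn (fun i j hij => ?_) j Q
  obtain ⟨P₀, Q₀, h1, h2, h3⟩ := hrel i j hij
  refine ⟨P₀, Q₀ + (2 : ℕ) • P₀, h1, fun g hg => ?_⟩
  have h4 : -((2 : ℕ) • gfun (g : N →+* N) (fixAB hg ha hb) P₀) + (Q₀ + (2 : ℕ) • P₀) =
      gfun (g : N →+* N) (fixAB hg ha hb) Q₀ := by
    have h5 := gfun_fix hg ha hb h2
    rw [gfun_add, gfun_nsmul] at h5
    rw [← h5]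
    abel
  rw [h4, hσ g hg, hσ g hg, ← map_nsmul, ← map_add, h3, map_zero]

end Hom

/-! ### points over the constants -/

/-- the criterion with the derivation -/
theorem inF_of_theta {D : Derivation ℤ N N} (hκ : Closed κ) (ha : a ∈ κ) (hb : b ∈ κ)
    (hD : ∀ z ∈ κ, D z = 0) {M : IntermediateField ℂ N} (hker : ∀ z ∈ M, D z = 0 → z ∈ κ)
    {R : (wc a b).toAffine.Point} (hR : InF M R) (h0 : theta D R = 0) : InF κ R := by
  rcases R with (_ | ⟨x, y, h⟩)
  · exact inF_zero κ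
  · rw [inF_iff hκ ha hb]
    exact hker x (hR x y h rfl).1 (theta_eq_zero (hD a ha) (hD b hb) h h0).1

/-- `Q = -2 P` up to a constant point when `theta Q = -2 theta P` -/
theorem inF_add_two {D : Derivation ℤ N N} (hκ : Closed κ) (ha : a ∈ κ) (hb : b ∈ κ)
    (hD : ∀ z ∈ κ, D z = 0) {M : IntermediateField ℂ N} (hM : κ ≤ M)
    (hker : ∀ z ∈ M, D z = 0 → z ∈ κ) {P Q : (wc a b).toAffine.Point} (hP : InF M P)
    (hQ : InF M Q) (h0 : theta D Q = -(2 * theta D P)) : InF κ (Q + (2 : ℕ) • P) := by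
  refine inF_of_theta hκ ha hb hD hker (hQ.add (hM ha) (hP.nsmul (hM ha) 2)) ?_
  rw [theta_add (hD a ha) (hD b hb), theta_nsmul (hD a ha) (hD b hb), h0]
  push_cast
  ring

end Vale.Agent.P297.H860
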