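import Vale.Agent.P297.H600.QDict

/-!
The logarithmic derivative of the points of a short Weierstrass curve with constant coefficients is
additive.
-/

set_option linter.unusedSectionVars false

namespace Vale.Agent.P297.H860

open Vale.Agent.P297.Z3 Vale.Agent.P297.G4 WeierstrassCurve WeierstrassCurve.Affine

variable {k : Type} [Field k] [CharZero k] {a b : k}

/-- `D x / y` at the point `(x, y)` -/
noncomputable def theta (D : Derivation ℤ k k) : (wc a b).toAffine.Point → k
  | 0 => 0
  | .some x y _ => D x / y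

theorem theta_zero (D : Derivation ℤ k k) : theta D (0 : (wc a b).toAffine.Point) = 0 := rfl

theorem theta_some (D : Derivation ℤ k k) {x y : k} (h : (wc a b).toAffine.Nonsingular x y) :
    theta D (.some x y h) = D x / y := rfl

theorem deriv_eqn {D : Derivation ℤ k k} (ha : D a = 0) (hb : D b = 0) {x y : k}
    (h : y ^ 2 = x ^ 3 + a * x + b) : 2 * y * D y = (3 * x ^ 2 + a) * D x := by
  have h1 := congrArg D h
  rw [map_add, map_add, D.leibniz_pow, D.leibniz_pow, D.leibniz, ha, hb] at h1
  simp only [smul_eq_mul, nsmul_eq_mul] at h1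
  push_cast at h1
  linear_combination h1

theorem deriv_ne {x : k} (h : (wc a b).toAffine.Nonsingular x 0) : 3 * x ^ 2 + a ≠ 0 := by
  rw [Affine.nonsingular_iff] at h
  obtain ⟨-, h1 | h1⟩ := h
  · intro h0
    apply h1
    simp only [wc]
    linear_combination -h0
  · exact absurd (by simp [wc]) h1

/-- the two equations that characterize `theta` -/
theorem theta_spec {D : Derivation ℤ k k} (ha : D a = 0) (hb : D b = 0) {x y : k}
    (h : (wc a b).toAffine.Nonsingular x y) :
    D x = theta D (.some x y h) * y ∧ 2 * D y = theta D (.some x y h) * (3 * x ^ 2 + a) := by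
  have h1 := deriv_eqn ha hb (wc_equation.1 h.1)
  rw [theta_some]
  by_cases hy : y = 0
  · subst hy
    have h2 := deriv_ne h
    rw [mul_zero, zero_mul] at h1
    have h3 : D x = 0 := (mul_eq_zero.1 h1.symm).resolve_left h2
    rw [h3, map_zero]
    simp
  · constructor
    · rw [div_mul_cancel₀ _ hy]
    · rw [div_mul_eq_mul_div, eq_div_iff hy]
      linear_combination h1

theorem theta_unique {D : Derivation ℤ k k} {x y t : k} (h : (wc a b).toAffine.Nonsingular x y)
    (h1 : D x = t * y) (h2 : 2 * D y = t * (3 * x ^ 2 + a)) : theta D (.some x y h) = t := by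
  rw [theta_some]
  by_cases hy : y = 0
  · subst hy
    have h3 := deriv_ne h
    rw [map_zero, mul_zero] at h2
    have h4 : t = 0 := (mul_eq_zero.1 h2.symm).resolve_right h3
    rw [h4, div_zero]
  · rw [h1, mul_div_assoc, div_self hy, mul_one]

theorem theta_neg (D : Derivation ℤ k k) (P : (wc a b).toAffine.Point) :
    theta D (-P) = -theta D P := by
  rcases P with (_ | ⟨x, y, h⟩)
  · change (0 : k) = -0
    rw [neg_zero]
  · rw [Point.neg_some]
    change D x / ((wc a b).toAffine.negY x y) = -(D x / y)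
    rw [wc_negY, div_neg]

/-- **Additivity.** -/
theorem theta_add [DecidableEq k] {D : Derivation ℤ k k} (ha : D a = 0) (hb : D b = 0)
    (P Q : (wc a b).toAffine.Point) : theta D (P + Q) = theta D P + theta D Q := by
  rcases P with (_ | ⟨x₁, y₁, h₁⟩)
  · change theta D (0 + Q) = 0 + theta D Q
    rw [zero_add, zero_add]
  rcases Q with (_ | ⟨x₂, y₂, h₂⟩)
  · change theta D (Point.some x₁ y₁ h₁ + 0) = theta D (Point.some x₁ y₁ h₁) + 0
    rw [add_zero, add_zero]
  by_cases hxy : x₁ = x₂ ∧ y₁ = (wc a b).toAffine.negY x₂ y₂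
  · rw [Point.add_of_Y_eq hxy.1 hxy.2, theta_zero, theta_some, theta_some]
    obtain ⟨rfl, h3⟩ := hxy
    rw [wc_negY] at h3
    rw [h3, div_neg]
    ring
  · obtain ⟨p1, p2⟩ := theta_spec ha hb h₁
    obtain ⟨r1, r2⟩ := theta_spec ha hb h₂
    have e1 := wc_equation.1 h₁.1
    have e2 := wc_equation.1 h₂.1
    obtain ⟨t, ht⟩ : ∃ t, t = theta D (.some x₁ y₁ h₁) := ⟨_, rfl⟩
    obtain ⟨u, hu⟩ : ∃ u, u = theta D (.some x₂ y₂ h₂) := ⟨_, rfl⟩
    rw [← ht] at p1 p2 ⊢
    rw [← hu] at r1 r2 ⊢
    rw [Point.add_some hxy]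
    obtain ⟨l, hl⟩ : ∃ l, l = (wc a b).toAffine.slope x₁ x₂ y₁ y₂ := ⟨_, rfl⟩
    have hX : (wc a b).toAffine.addX x₁ x₂ ((wc a b).toAffine.slope x₁ x₂ y₁ y₂) =
        l ^ 2 - x₁ - x₂ := by rw [wc_addX, hl]
    have hY : (wc a b).toAffine.addY x₁ x₂ y₁ ((wc a b).toAffine.slope x₁ x₂ y₁ y₂) =
        -(l * (l ^ 2 - x₁ - x₂ - x₁) + y₁) := by rw [wc_addY, hl]
    by_cases hx : x₁ = x₂
    · -- doubling
      subst hx
      have hy : y₁ ≠ (wc a b).toAffine.negY x₁ y₂ := fun h => hxy ⟨rfl, h⟩
      have hyy : y₁ = y₂ := by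
        rw [wc_negY] at hy
        have h3 : (y₁ - y₂) * (y₁ + y₂) = 0 := by linear_combination e1 - e2
        rcases mul_eq_zero.1 h3 with h4 | h4
        · exact sub_eq_zero.1 h4
        · exact absurd (by linear_combination h4) hy
      subst hyy
      have hy0 : y₁ ≠ 0 := by
        rintro rfl
        apply hy
        rw [wc_negY, neg_zero]
      have hut : u = t := by rw [hu, ht]
      subst hut
      have hl2 : l * (2 * y₁) = 3 * x₁ ^ 2 + a := by
        rw [hl, Affine.slope_of_Y_ne rfl hy, wc_negY]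
        simp only [wc]
        have h5 : y₁ - -y₁ ≠ 0 := by
          intro h0
          apply hy0
          have h6 : (2 : k) * y₁ = 0 := by linear_combination h0
          exact (mul_eq_zero.1 h6).resolve_left two_ne_zero
        field_simp
        ring
      have hdy : D y₁ = u * l * y₁ := by
        have h6 : (2 : k) * (D y₁ - u * l * y₁) = 0 := by
          linear_combination p2 - u * hl2
        exact sub_eq_zero.1 ((mul_eq_zero.1 h6).resolve_left two_ne_zero)
      have hdl : D l = u * (3 * x₁ - l ^ 2) := by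
        have h6 := congrArg D hl2
        rw [D.leibniz, D.leibniz, map_add, D.leibniz, D.leibniz_pow, ha] at h6
        have h7 : D (2 : k) = 0 := by
          have := D.map_natCast 2
          simpa using this
        have h8 : D (3 : k) = 0 := by
          have := D.map_natCast 3
          simpa using this
        rw [h7, h8, p1, hdy] at h6
        simp only [smul_eq_mul, nsmul_eq_mul] at h6
        push_cast at h6
        have h9 : (2 * y₁) * (D l - u * (3 * x₁ - l ^ 2)) = 0 := by
          linear_combination h6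
        exact sub_eq_zero.1 ((mul_eq_zero.1 h9).resolve_left (mul_ne_zero two_ne_zero hy0))
      refine theta_unique _ ?_ ?_
      · rw [hX, hY, map_sub, map_sub, D.leibniz_pow, hdl, p1]
        simp only [smul_eq_mul, nsmul_eq_mul]
        push_cast
        ring
      · rw [hX, hY, map_neg, map_add, D.leibniz, map_sub, map_sub, map_sub, D.leibniz_pow, hdl,
          p1, hdy]
        simp only [smul_eq_mul, nsmul_eq_mul]
        push_cast
        linear_combination (2 * u) * hl2
    · -- different first coordinates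
      have hd : x₁ - x₂ ≠ 0 := sub_ne_zero.2 hx
      have hl2 : l * (x₁ - x₂) = y₁ - y₂ := by
        rw [hl, wc_slope_of_ne hx]
        field_simp
      have h0 : x₁ ^ 2 + x₁ * x₂ + x₂ ^ 2 + a = l * (y₁ + y₂) := by
        have h3 : (x₁ - x₂) * (x₁ ^ 2 + x₁ * x₂ + x₂ ^ 2 + a - l * (y₁ + y₂)) = 0 := by
          linear_combination e2 - e1 - (y₁ + y₂) * hl2
        exact sub_eq_zero.1 ((mul_eq_zero.1 h3).resolve_left hd)
      have hdl : D l * (x₁ - x₂) + l * (t * y₁ - u * y₂) = D y₁ - D y₂ := by
        have h6 := congrArg D hl2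
        rw [D.leibniz, map_sub, map_sub, p1, r1] at h6
        simp only [smul_eq_mul] at h6
        linear_combination h6
      -- the derivative of the first coordinate
      have k1 : D (l ^ 2 - x₁ - x₂) = (t + u) * (-(l * (l ^ 2 - x₁ - x₂ - x₁) + y₁)) := by
        rw [map_sub, map_sub, D.leibniz_pow, p1, r1]
        simp only [smul_eq_mul, nsmul_eq_mul]
        push_cast
        apply mul_left_cancel₀ hd
        linear_combination (2 * l) * hdl + l * p2 - l * r2 + l * (t - u) * h0 +
          (t * l ^ 2 + u * l ^ 2 - u * (x₁ - x₂)) * hl2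
      refine theta_unique _ ?_ ?_
      · rw [hX, hY]
        exact k1
      · rw [hX, hY, map_neg, map_add, D.leibniz, map_sub, k1, p1]
        simp only [smul_eq_mul]
        apply mul_left_cancel₀ hd
        linear_combination (-2 * (l ^ 2 - x₁ - x₂ - x₁)) * hdl -
          (l ^ 2 - x₁ - x₂ - x₁ + (x₁ - x₂)) * p2 + (l ^ 2 - x₁ - x₂ - x₁) * r2 -
          t * (l ^ 2 - x₁ - x₂ - x₁ + 2 * (x₁ - x₂)) * (h0 + l * hl2) +
          u * ((l ^ 2 - x₁ - x₂ - x₁) * (h0 - l * hl2) - (x₁ - x₂) * (h0 + l * hl2))

end Vale.Agent.P297.H860
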