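import Vale.Agent.P297.H860.TEnd
import Vale.Agent.P297.H54.T8Tri
import Vale.Agent.P297.H927.DerCl

/-!
The end of the other side in the letters of the three quartics.
-/

set_option linter.unusedSectionVars false

open IntermediateField Polynomial WeierstrassCurve WeierstrassCurve.Affine

namespace Vale.Agent.P297.H860

open Vale.Agent.P297 Vale.Agent.P297.Gen Vale.Agent.P297.H839 Vale.Agent.P297.H600
open Vale.Agent.P297.H729 Vale.Agent.P297.Z3 Vale.Agent.P297.G4 Vale.Agent.P297.H54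

variable {N : Type} [Field N] [Algebra ℂ N] [IsAlgClosed N] [CharZero N] [DecidableEq N]
variable {a b l : N}

theorem big_of_deg (h4 : Algebra.trdeg ℂ N = 4) (l : N) :
    ∃ x x' : N, x ∉ cl0 {l} ∧ x' ∉ clo (cl0 {l}) {x} := by
  obtain ⟨x, hx⟩ := exists_notMem1 h4 l l
  obtain ⟨x', hx'⟩ := exists_notMem1 h4 l x
  exact ⟨x, x', fun h => hx (le_clo _ _ h), hx'⟩

/-- **The end of the other side.** -/
theorem tend {A : Type*} [AddCommGroup A] (h4 : Algebra.trdeg ℂ N = 4) (ha : a ∈ cl0 {l})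
    (hb : b ∈ cl0 {l}) (hd : 4 * a ^ 3 + 27 * b ^ 2 ≠ 0)
    (h : Fin 3 → (wc a b).toAffine.Point →+ A) {n m : ℕ} (hres : ∀ P, n • ∑ i, h i P = 0)
    (H : ∀ i j, i ≠ j → ∀ P, ¬ InF (cl0 {l}) P → ∃ e, InF (cl0 {l}) e ∧
      ∀ (g : N ≃ₐ[ℂ] N) (hg : ∀ z ∈ cl0 {l}, g z = z),
        m • ((2 : ℕ) • h i (gfun (g : N →+* N) (fixAB hg ha hb) P) +
          h j (-((2 : ℕ) • gfun (g : N →+* N) (fixAB hg ha hb) P) + e)) = 0)
    (i : Fin 3) (P : (wc a b).toAffine.Point) : (6 * n * m) • h i P = 0 := by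
  have hbig := big_of_deg h4 l
  obtain ⟨x, -, hx, -⟩ := id hbig
  obtain ⟨y, hxy, -⟩ := exists_point (a := a) (b := b) hd x
  have hP : ¬ InF (cl0 {l}) (Point.some x y hxy) := by
    rw [inF_iff (closed_cl0 _) ha hb]
    exact hx
  have h1 := hom_three (closed_cl0 _) ha hb hd hbig (fun i => m • h i) (n := n)
    (fun P _ => by
      have h2 : ∑ j, (m • h j) P = m • ∑ j, h j P := by
        rw [Finset.smul_sum]
        rfl
      rw [h2, smul_comm, hres, smul_zero]) (fun i j hij => by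
      obtain ⟨e, -, he⟩ := H i j hij _ hP
      refine ⟨_, e, hP, fun g hg => ?_⟩
      have h2 := he g hg
      rw [smul_add, smul_comm] at h2
      exact h2) i P
  have h2 : (m • h i) P = m • h i P := rfl
  rw [h2, smul_smul] at h1
  exact h1

/-- a point that is killed by all derivations over a closed subfield -/
theorem inF_of_all_theta {S : Set N} (ha : a ∈ cl0 S) (hb : b ∈ cl0 S)
    {R : (wc a b).toAffine.Point}
    (h : ∀ D : Derivation ℤ N N, (∀ z ∈ cl0 S, D z = 0) → theta D R = 0) :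
    InF (cl0 S) R := by
  rcases R with (_ | ⟨x, y, hxy⟩)
  · exact inF_zero _
  · rw [inF_iff (closed_cl0 _) ha hb]
    by_contra hx
    obtain ⟨D, hD⟩ := H927.exists_isDer hx
    have h1 := (theta_eq_zero (hD.zero a ha) (hD.zero b hb) hxy (h D hD.zero)).1
    rw [hD.one] at h1
    exact one_ne_zero h1

theorem theta_pc {a' b' : N} (ha : a' = a) (hb : b' = b) (D : Derivation ℤ N N)
    (P : (wc a b).toAffine.Point) : theta D (pc ha hb P) = theta D P := by
  subst ha hb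
  rfl

/-- the second coordinate of a generic point is not zero -/
theorem aY_ne {c : Fin 5 → N} (hd : 4 * qI c ^ 3 ≠ qJ c ^ 2) {M : IntermediateField ℂ N}
    (hM : Closed M) (hc : ∀ i, c i ∈ M) {ε : N} (hε : qv c ε = 0) {P : (Wq c).Point}
    (hP : ¬ InF M P) : aY c ε P ≠ 0 := by
  intro h0
  have hεm : ε ∈ M := root_mem hM hc (coeff_ne hd) hε
  have h1 := Fin'.eqn hε (gen_fin hc hM hεm hP)
  rw [h0] at h1
  refine aX_notMem hd hc hM hεm hε hP (root_mem hM hc (coeff_ne hd) ?_)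
  rw [← h1]
  ring

/-- `theta` of a point in terms of the point of the quartic -/
theorem theta_quartic {c : Fin 5 → N} (hI : -qI c / 3 = a) (hJ : -qJ c / 27 = b)
    (hd : 4 * qI c ^ 3 ≠ qJ c ^ 2) (hc : ∀ i, c i ∈ cl0 {l}) {ε : N} (hε : qv c ε = 0)
    {D : Derivation ℤ N N} (hD : ∀ z ∈ cl0 {l}, D z = 0) {P : (wc a b).toAffine.Point}
    (hP : ¬ InF (cl0 {l}) P) : theta D P =
      -(D (aX c ε (pc hI hJ P)) / aY c ε (pc hI hJ P)) := by
  have hM := closed_cl0 ({l} : Set N)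
  have hεm : ε ∈ cl0 {l} := root_mem hM hc (coeff_ne hd) hε
  have hP' : ¬ InF (cl0 {l}) (pc hI hJ P) := by rwa [pc_inF]
  rw [← theta_pc hI hJ]
  exact theta_aX (fun i => hD _ (hc i)) (hD _ hεm) (gen_fin hc hM hεm hP')
    (aY_ne hd hM hc hε hP')

/-- **The four lines**: the differential identity gives the relation of the points up to a point
over the constants. -/
theorem four_inF {c c' : Fin 5 → N} (ha : a ∈ cl0 {l}) (hb : b ∈ cl0 {l})
    (hI : -qI c / 3 = a) (hJ : -qJ c / 27 = b) (hI' : -qI c' / 3 = a) (hJ' : -qJ c' / 27 = b)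
    (hd : 4 * qI c ^ 3 ≠ qJ c ^ 2) (hd' : 4 * qI c' ^ 3 ≠ qJ c' ^ 2)
    (hc : ∀ i, c i ∈ cl0 {l}) (hc' : ∀ i, c' i ∈ cl0 {l}) {ε ε' : N} (hε : qv c ε = 0)
    (hε' : qv c' ε' = 0) {P : (wc a b).toAffine.Point} {ι : Type*} (s : Finset ι)
    {Q : ι → (wc a b).toAffine.Point} (hP : ¬ InF (cl0 {l}) P)
    (hQ : ∀ k ∈ s, ¬ InF (cl0 {l}) (Q k))
    (F4 : ∀ D : Derivation ℤ N N, (∀ z ∈ cl0 {l}, D z = 0) →
      2 * (D (aX c ε (pc hI hJ P)) / aY c ε (pc hI hJ P)) +
        ∑ k ∈ s, D (aX c' ε' (pc hI' hJ' (Q k))) / aY c' ε' (pc hI' hJ' (Q k)) = 0) :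
    InF (cl0 {l}) (∑ k ∈ s, Q k + (2 : ℕ) • P) := by
  refine inF_of_all_theta ha hb fun D hD => ?_
  have h1 := F4 D hD
  rw [theta_add (hD a ha) (hD b hb), theta_sum (hD a ha) (hD b hb),
    theta_nsmul (hD a ha) (hD b hb), theta_quartic hI hJ hd hc hε hD hP]
  have h2 : ∑ k ∈ s, theta D (Q k) =
      -∑ k ∈ s, D (aX c' ε' (pc hI' hJ' (Q k))) / aY c' ε' (pc hI' hJ' (Q k)) := by
    rw [← Finset.sum_neg_distrib]
    exact Finset.sum_congr rfl fun k hk => theta_quartic hI' hJ' hd' hc' hε' hD (hQ k hk)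
  rw [h2]
  push_cast
  linear_combination -h1

end Vale.Agent.P297.H860
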